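import Vale.Agent.P042.H956.LiNum
import Vale.Agent.P042.H565.OwnC

/-! Bridges between helper685's pinned, restricted families `gr (gp (gdw w μ) A x) I`, the energies
`W`/`nh` of pinned measures (helper956, helper482) and `nP` (helper565). -/

namespace Vale.Agent.P042.H529

open Finset Vale.Agent.P042.H779.Ab
open Vale.Agent.P042.H482 (hc nh)
open Vale.Agent.P042.H685 (gp gr hh WW nr ov_mem ov_notMem gp_empty)
open Vale.Agent.P042.H956 (pin gdw_pin_ov WW_bridge pin_pin pin_congr pin_empty)
open Vale.Agent.P042.H565 (hp nP)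

set_option autoImplicit false
set_option linter.unusedSectionVars false

variable {ι : Type*} [Fintype ι] [DecidableEq ι] {V : ι → Type*} [∀ i, Fintype (V i)]
  [∀ i, DecidableEq (V i)] {w : ∀ i, V i → ℝ} {μ : (∀ i, V i) → ℝ}

/-- `ov` of 685 and of 956 are the same function -/
lemma ov_eq (A : Finset ι) (u x : ∀ i, V i) : H956.ov A u x = H685.ov A u x := rfl

/-- `hh` of 685 and `hc` of 482 are the same function -/
lemma hh_eq_hc (g : Finset ι → (∀ i, V i) → ℝ) (B : Finset ι) (x : ∀ i, V i) :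
    hh g B x = hc g B x := rfl

lemma nr_eq_nh (g : Finset ι → (∀ i, V i) → ℝ) (B : Finset ι) :
    nr w (hh g) B = nh w g B := rfl

/-- the pinned family on the free sites is the density family of the pinned measure -/
theorem gr_gp {A I : Finset ι} (hAI : Disjoint A I) (x : ∀ i, V i) :
    gr (gp (gdw w μ) A x) I = gr (gdw w (pin w μ A x)) I := by
  funext C y
  unfold gr gp
  have hd : Disjoint A (C ∩ I) := disjoint_of_subset_right inter_subset_right hAI
  rw [gdw_pin_ov hd]

/-- energies of the pinned family on the free sites -/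
theorem WW_gr_gp {A I : Finset ι} (hAI : Disjoint A I) (x : ∀ i, V i) (l : ℕ) :
    WW w (gr (gp (gdw w μ) A x) I) l = H956.W w (pin w μ A x) I l := by
  have h := WW_bridge (w := w) (ρ := pin w μ A x) I ∅ x l
  rw [gp_empty, empty_inter, pin_empty, sdiff_empty] at h
  rw [gr_gp hAI, h]

/-- energies of the doubly pinned family -/
theorem WW_gp_gr_gp {A I S : Finset ι} (hAI : Disjoint A I) (hS : S ⊆ I) (x v : ∀ i, V i)
    (l : ℕ) :
    WW w (gp (gr (gp (gdw w μ) A x) I) S v) l
      = H956.W w (pin w (pin w μ A x) S v) (I \ S) l := by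
  rw [gr_gp hAI, WW_bridge, inter_eq_left.mpr hS]

/-- the same, any `S` -/
theorem WW_gp_gr_gp' {A I : Finset ι} (hAI : Disjoint A I) (S : Finset ι) (x v : ∀ i, V i)
    (l : ℕ) :
    WW w (gp (gr (gp (gdw w μ) A x) I) S v) l
      = H956.W w (pin w (pin w μ A x) (S ∩ I) v) (I \ S) l := by
  rw [gr_gp hAI, WW_bridge]

/-- explicit sums -/
theorem WW_sum {A I S : Finset ι} (hAI : Disjoint A I) (hS : S ⊆ I) (x v : ∀ i, V i) (l : ℕ) :
    WW w (gp (gr (gp (gdw w μ) A x) I) S v) l
      = ∑ D ∈ powersetCard l (I \ S), nh w (gdw w (pin w (pin w μ A x) S v)) D :=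
  WW_gp_gr_gp hAI hS x v l

/-- the doubly pinned measure is the measure pinned on the union -/
theorem pin_pin' {A S : Finset ι} (hAS : Disjoint A S) (x v : ∀ i, V i) :
    pin w (pin w μ A x) S v = pin w μ (A ∪ S) (H685.ov S v x) := by
  rw [pin_pin hAS x v]
  rfl

/-- mass of a pinned measure -/
theorem pin_mass (A : Finset ι) (x : ∀ i, V i) : ∑ y, pin w μ A x y = gdw w μ A x := by
  unfold gdw H779.marg pin
  rw [sum_div]
  refine sum_congr rfl fun y _ => ?_
  split_ifs <;> simp

/-- component of the pinned measure in 565's notation -/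
theorem hp_eq {A D : Finset ι} (hAD : Disjoint A D) (x y : ∀ i, V i) :
    hp w μ A D (A.piecewise x y) = hc (gdw w (pin w μ A x)) D y := by
  unfold hp hc
  refine sum_congr rfl fun C hC => ?_
  congr 1
  have hd : Disjoint A C := disjoint_of_subset_right (mem_powerset.mp hC) hAD
  rw [gdw_pin_ov hd]
  refine loc_gdw _ _ _ fun i hi => ?_
  by_cases h : i ∈ A
  · rw [piecewise_eq_of_mem _ _ _ h, ov_mem h]
  · rw [piecewise_eq_of_notMem _ _ _ h, ov_notMem h]

/-- energy of the pinned measure in 565's notation -/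
theorem nP_eq {A D : Finset ι} (hAD : Disjoint A D) (x : ∀ i, V i) :
    nP w μ A x D = nh w (gdw w (pin w μ A x)) D := by
  unfold nP nh
  refine sum_congr rfl fun y _ => ?_
  rw [hp_eq hAD]
  rfl

/-- **(LI) in 565's notation.** -/
theorem WW_nP {A I : Finset ι} (hAI : Disjoint A I) (x : ∀ i, V i) (l : ℕ) :
    WW w (gr (gp (gdw w μ) A x) I) l = ∑ D ∈ powersetCard l I, nP w μ A x D := by
  rw [WW_gr_gp hAI]
  unfold H956.W
  refine sum_congr rfl fun D hD => ?_
  rw [nP_eq (disjoint_of_subset_right (mem_powersetCard.mp hD).1 hAI)]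

/-- **(PH) in 565's notation.** -/
theorem WW_nP2 {A I S : Finset ι} (hAI : Disjoint A I) (hS : S ⊆ I) (x v : ∀ i, V i) (l : ℕ) :
    WW w (gp (gr (gp (gdw w μ) A x) I) S v) l
      = ∑ D ∈ powersetCard l (I \ S), nP w μ (A ∪ S) (H685.ov S v x) D := by
  have hAS : Disjoint A S := disjoint_of_subset_right hS hAI
  rw [WW_gp_gr_gp hAI hS, pin_pin' hAS]
  unfold H956.W
  refine sum_congr rfl fun D hD => ?_
  have hD1 := (mem_powersetCard.mp hD).1
  have hd : Disjoint (A ∪ S) D := by
    rw [disjoint_union_left]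
    exact ⟨disjoint_of_subset_right (hD1.trans sdiff_subset) hAI,
      disjoint_of_subset_right hD1 disjoint_sdiff⟩
  rw [nP_eq hd]

/-- the pins of `pin_pin'` may be read at any point which agrees with `v` on `S` and `x` on `A` -/
theorem pin_pt {A S : Finset ι} (x v z : ∀ i, V i) (hz : ∀ i ∈ S, z i = v i)
    (hz' : ∀ i ∈ A, i ∉ S → z i = x i) :
    pin w μ (A ∪ S) (H685.ov S v x) = pin w μ (A ∪ S) z := by
  refine pin_congr fun i hi => ?_
  by_cases h : i ∈ S
  · rw [ov_mem h, hz i h]
  · rw [ov_notMem h, hz' i ((mem_union.mp hi).resolve_right h) h]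

end Vale.Agent.P042.H529
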